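import Vale.Agent.P154.LN.Chain
import Vale.Agent.P154.LN.EgData

/-!
Recognition of a fixed-point state inside the region of the endgame.
-/

namespace Vale.Agent.P154.LN.PhaseI

/-- The region conditions in rational arithmetic. -/
def inRegion (c : Endgame.Knot) (a b : ℕ) : Bool :=
  decide (2 * ((a : ℚ) / SC) + ((b : ℚ) / SC) / 2 ≤ c.x0 ∧
    -(c.k1 * (2 * ((a : ℚ) / SC) + ((b : ℚ) / SC) / 2))
      ≤ 2 * ((a : ℚ) / SC) - ((b : ℚ) / SC) / 4 ∧
    2 * ((a : ℚ) / SC) - ((b : ℚ) / SC) / 4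
      ≤ c.k2 * (2 * ((a : ℚ) / SC) + ((b : ℚ) / SC) / 2))

lemma region_of {c : Endgame.Knot} {a b : ℕ} (h : inRegion c a b = true) :
    Endgame.Region c ((a : ℝ) / SC) ((b : ℝ) / SC) := by
  obtain ⟨h1, h2, h3⟩ := of_decide_eq_true h
  rw [← Rat.cast_le (K := ℝ)] at h1 h2 h3
  push_cast at h1 h2 h3
  exact ⟨h1, h2, h3, div_nonneg (Nat.cast_nonneg _) SC_pos.le,
    div_nonneg (Nat.cast_nonneg _) SC_pos.le⟩

end Vale.Agent.P154.LN.PhaseI
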